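import Vale.Agent.P225.LieFull.Cone

/-! P225 C1: the coordinates `z = x_{2a} + i x_{2a+1}` diagonalising the standard rotation. -/

open scoped BigOperators
open MvPolynomial

namespace Vale.Agent.P225.Eigen

open LieFull

variable (j : ℕ)

/-- Index type of the complex coordinates; `false` for `z`, `true` for its conjugate. -/
abbrev Zv (j : ℕ) := Fin (j + 1) × Bool

/-- Polynomials in `z, z̄`. -/
abbrev ZP (j : ℕ) := MvPolynomial (Zv j) ℂ

def ev (a : Fin (j + 1)) : Fin (amb j) := ⟨2 * a, by unfold amb; omega⟩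
def od (a : Fin (j + 1)) : Fin (amb j) := ⟨2 * a + 1, by unfold amb; omega⟩

def ix : Zv j ≃ Fin (amb j) where
  toFun v := if v.2 then od j v.1 else ev j v.1
  invFun i := (⟨i / 2, by have := i.2; unfold amb at this; omega⟩, decide ((i : ℕ) % 2 = 1))
  left_inv v := by
    obtain ⟨a, b⟩ := v
    cases b <;> simp [ev, od, Fin.ext_iff] <;> omega
  right_inv i := by
    rcases Nat.mod_two_eq_zero_or_one (i : ℕ) with h | h <;>
      simp [h, ev, od, Fin.ext_iff] <;> omega

theorem ev_or_od (i : Fin (amb j)) : (∃ a, i = ev j a) ∨ ∃ a, i = od j a := by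
  obtain ⟨⟨a, b⟩, rfl⟩ := (ix j).surjective i
  cases b
  · exact Or.inl ⟨a, rfl⟩
  · exact Or.inr ⟨a, rfl⟩

theorem sum_fin_amb {M : Type*} [AddCommMonoid M] (f : Fin (amb j) → M) :
    ∑ i, f i = ∑ a, (f (ev j a) + f (od j a)) := by
  rw [← (ix j).sum_comp, Fintype.sum_prod_type]
  refine Finset.sum_congr rfl fun a _ => ?_
  rw [Fintype.sum_bool, add_comm]
  rfl

/-- `± i`. -/
noncomputable def sgn (b : Bool) : ℂ := if b then -Complex.I else Complex.I

/-- The substitution `z_a = x_{2a} + i x_{2a+1}`. -/
noncomputable def fwd : ZP j →ₐ[ℂ] CP (amb j) :=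
  aeval fun v => X (ev j v.1) + C (sgn v.2) * X (od j v.1)

/-- The inverse substitution. -/
noncomputable def bwd : CP (amb j) →ₐ[ℂ] ZP j :=
  aeval fun i => if ((ix j).symm i).2 then
      C (-Complex.I / 2) * (X (((ix j).symm i).1, false) - X (((ix j).symm i).1, true))
    else C (1 / 2) * (X (((ix j).symm i).1, false) + X (((ix j).symm i).1, true))

theorem fwd_X (v : Zv j) : fwd j (X v) = X (ev j v.1) + C (sgn v.2) * X (od j v.1) := by
  simp [fwd]

theorem bwd_ev (a : Fin (j + 1)) :
    bwd j (X (ev j a)) = C (1 / 2) * (X (a, false) + X (a, true)) := by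
  have : (ix j).symm (ev j a) = (a, false) := (ix j).symm_apply_eq.mpr rfl
  simp [bwd, this]

theorem bwd_od (a : Fin (j + 1)) :
    bwd j (X (od j a)) = C (-Complex.I / 2) * (X (a, false) - X (a, true)) := by
  have : (ix j).symm (od j a) = (a, true) := (ix j).symm_apply_eq.mpr rfl
  simp [bwd, this]

theorem fwd_bwd (f : CP (amb j)) : fwd j (bwd j f) = f := by
  suffices (fwd j).comp (bwd j) = AlgHom.id ℂ _ from DFunLike.congr_fun this f
  refine MvPolynomial.algHom_ext fun i => ?_
  simp only [AlgHom.comp_apply, AlgHom.id_apply]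
  rcases ev_or_od j i with ⟨a, rfl⟩ | ⟨a, rfl⟩
  · rw [bwd_ev, map_mul, map_add, fwd_X, fwd_X]
    simp only [sgn, algHom_C]
    rw [algebraMap_eq, if_neg (by simp), if_pos (by simp), map_neg]
    have h2 : (C (1 / 2) + C (1 / 2) : CP (amb j)) = 1 := by rw [← map_add]; norm_num
    linear_combination (X (ev j a) : CP (amb j)) * h2
  · rw [bwd_od, map_mul, map_sub, fwd_X, fwd_X]
    simp only [sgn, algHom_C]
    rw [algebraMap_eq, if_neg (by simp), if_pos (by simp), map_neg]
    have h2 : (C (-Complex.I / 2) * C Complex.I + C (-Complex.I / 2) * C Complex.I :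
        CP (amb j)) = 1 := by
      rw [← map_mul, ← map_add, show -Complex.I / 2 * Complex.I + -Complex.I / 2 * Complex.I =
        -(Complex.I * Complex.I) by ring, Complex.I_mul_I]
      simp
    linear_combination (X (od j a) : CP (amb j)) * h2

theorem bwd_fwd (g : ZP j) : bwd j (fwd j g) = g := by
  suffices (bwd j).comp (fwd j) = AlgHom.id ℂ _ from DFunLike.congr_fun this g
  refine MvPolynomial.algHom_ext fun v => ?_
  obtain ⟨a, b⟩ := v
  simp only [AlgHom.comp_apply, AlgHom.id_apply, fwd_X, map_add, map_mul, bwd_ev, bwd_od, algHom_C,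
    algebraMap_eq]
  have hI : C (Complex.I * (-Complex.I / 2)) = (C (1 / 2) : ZP j) := by
    congr 1
    rw [show Complex.I * (-Complex.I / 2) = -(Complex.I * Complex.I) / 2 by ring, Complex.I_mul_I]
    ring
  have h2 : (C (1 / 2) + C (1 / 2) : ZP j) = 1 := by rw [← map_add]; norm_num
  rw [map_mul] at hI
  cases b
  · simp only [sgn, Bool.false_eq_true, if_false]
    linear_combination (X (a, false) : ZP j) * h2 + (X (a, false) - X (a, true)) * hI
  · simp only [sgn, if_true, map_neg]
    linear_combination (X (a, true) : ZP j) * h2 - (X (a, false) - X (a, true)) * hI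

/-- The diagonal derivation. -/
noncomputable def diagD : Derivation ℂ (ZP j) (ZP j) := mkDerivation ℂ fun v => sgn v.2 • X v

/-- Degree in `z` or in `z̄`. -/
def bideg (b : Bool) (e : Zv j →₀ ℕ) : ℕ := ∑ a, e (a, b)

theorem degree_eq (e : Zv j →₀ ℕ) : e.degree = bideg j false e + bideg j true e := by
  rw [Finsupp.degree_apply, Finset.sum_subset (Finset.subset_univ _) (by simp), bideg, bideg,
    ← Finset.sum_add_distrib, Fintype.sum_prod_type]
  exact Finset.sum_congr rfl fun a _ => by rw [Fintype.sum_bool, add_comm]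

theorem diagD_monomial (e : Zv j →₀ ℕ) (c : ℂ) : diagD j (monomial e c) =
    monomial e (c * (Complex.I * ((bideg j false e : ℂ) - bideg j true e))) := by
  rw [diagD, mkDerivation_monomial, Finsupp.sum]
  have : ∀ v ∈ e.support, monomial (e - Finsupp.single v 1) (e v : ℂ) • (sgn v.2 • X v : ZP j) =
      monomial e ((e v : ℂ) * sgn v.2) := by
    intro v hv
    have hle : Finsupp.single v 1 ≤ e := by
      rw [Finsupp.single_le_iff]; exact Nat.one_le_iff_ne_zero.mpr (Finsupp.mem_support_iff.mp hv)
    rw [smul_eq_mul, X, smul_monomial, monomial_mul, tsub_add_cancel_of_le hle, smul_eq_mul, mul_one]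
  rw [Finset.sum_congr rfl this, ← map_sum, smul_monomial, smul_eq_mul,
    Finset.sum_subset (Finset.subset_univ _)
      (fun v _ hv => by simp [Finsupp.notMem_support_iff.mp hv]), Fintype.sum_prod_type]
  congr 2
  simp only [bideg, Nat.cast_sum, ← Finset.sum_sub_distrib, Finset.mul_sum]
  refine Finset.sum_congr rfl fun a _ => ?_
  rw [Fintype.sum_bool]
  simp [sgn]
  ring

theorem coeff_diagD (e : Zv j →₀ ℕ) (g : ZP j) : coeff e (diagD j g) =
    coeff e g * (Complex.I * ((bideg j false e : ℂ) - bideg j true e)) := by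
  induction g using MvPolynomial.induction_on' with
  | monomial d c =>
    rw [diagD_monomial, coeff_monomial, coeff_monomial]
    split_ifs with h
    · rw [h]
    · simp
  | add p q hp hq => rw [map_add, coeff_add, coeff_add, hp, hq, add_mul]

theorem stdJ_ev (a : Fin (j + 1)) :
    cMat (stdJ j) (ev j a) = -Pi.single (od j a) (1 : ℂ) := by
  funext k
  simp only [cMat, Matrix.map_apply, stdJ, Matrix.of_apply, Pi.neg_apply]
  by_cases h : k = od j a
  · subst h; simp [ev, od]
  · have h' : (k : ℕ) ≠ 2 * a + 1 := fun hk => h (Fin.ext hk)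
    rw [Pi.single_eq_of_ne h, if_neg (by simp [ev]), if_neg (by simp [ev]; omega)]
    simp

theorem stdJ_od (a : Fin (j + 1)) :
    cMat (stdJ j) (od j a) = Pi.single (ev j a) (1 : ℂ) := by
  funext k
  simp only [cMat, Matrix.map_apply, stdJ, Matrix.of_apply]
  by_cases h : k = ev j a
  · subst h; simp [ev, od]
  · have h' : (k : ℕ) ≠ 2 * a := fun hk => h (Fin.ext hk)
    rw [Pi.single_eq_of_ne h, if_neg (by simp [od]; omega), if_neg (by simp [od]; omega)]
    simp

theorem der_fwd (g : ZP j) : der (cMat (stdJ j)) (fwd j g) = fwd j (diagD j g) := by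
  induction g using MvPolynomial.induction_on with
  | C c => simp [fwd, diagD, algebraMap_eq]
  | add p q hp hq => simp [hp, hq]
  | mul_X p v hp =>
    obtain ⟨a, b⟩ := v
    have hv : der (cMat (stdJ j)) (fwd j (X (a, b))) = fwd j (diagD j (X (a, b))) := by
      rw [fwd_X, map_add, Derivation.leibniz, derivation_C, smul_zero, add_zero, der_X, der_X,
        stdJ_ev, stdJ_od, map_neg, lin_single, lin_single, diagD, mkDerivation_X, map_smul, fwd_X,
        smul_eq_mul, smul_add, smul_eq_C_mul, smul_eq_C_mul]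
      have hI : (C Complex.I * C Complex.I : CP (amb j)) = -1 := by
        rw [← map_mul, Complex.I_mul_I]; simp
      cases b <;>
      · simp only [sgn, Bool.false_eq_true, if_false, if_true, map_neg]
        linear_combination (-(X (od j a)) : CP (amb j)) * hI
    rw [map_mul, Derivation.leibniz, Derivation.leibniz, hv, hp, smul_eq_mul, smul_eq_mul,
      smul_eq_mul, smul_eq_mul, map_add, map_mul, map_mul]

theorem pderiv_fwd (g : ZP j) (a : Fin (j + 1)) :
    pderiv (ev j a) (fwd j g) = fwd j (pderiv (a, false) g + pderiv (a, true) g) ∧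
    pderiv (od j a) (fwd j g) =
      fwd j (Complex.I • pderiv (a, false) g - Complex.I • pderiv (a, true) g) := by
  induction g using MvPolynomial.induction_on with
  | C c => simp [fwd, algebraMap_eq]
  | add p q hp hq =>
    simp only [map_add, hp.1, hq.1, hp.2, hq.2, map_sub, smul_add]
    constructor <;> ring
  | mul_X p v hp =>
    obtain ⟨c, b⟩ := v
    have h1 : pderiv (ev j a) (fwd j (X (c, b))) =
        fwd j (pderiv (a, false) (X (c, b)) + pderiv (a, true) (X (c, b))) ∧
        pderiv (od j a) (fwd j (X (c, b))) = fwd j (Complex.I • pderiv (a, false) (X (c, b)) -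
          Complex.I • pderiv (a, true) (X (c, b))) := by
      rw [fwd_X]
      rcases eq_or_ne c a with rfl | hca
      · cases b <;> simp [pderiv_X, ev, od, sgn, smul_eq_C_mul, Fin.ext_iff,
          algebraMap_eq]
      · have hca' : (c : ℕ) ≠ a := fun h => hca (Fin.ext h)
        cases b <;> simp [pderiv_X, Pi.single_apply, ev, od, sgn, Fin.ext_iff, hca, hca', Ne.symm hca']
          <;> omega
    obtain ⟨e1, e2⟩ := h1
    constructor
    · simp only [pderiv_mul, map_mul, map_add, hp.1, e1]
      ring
    · simp only [pderiv_mul, map_mul, map_add, hp.2, e2, map_sub, smul_eq_C_mul]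
      ring

/-- `∑ ∂_z ∂_z̄`. -/
noncomputable def lapZ : ZP j →ₗ[ℂ] ZP j :=
  ∑ a : Fin (j + 1), (pderiv (a, false)).toLinearMap.comp (pderiv (a, true)).toLinearMap

theorem lapC_fwd (g : ZP j) : lapC (amb j) (fwd j g) = (4 : ℂ) • fwd j (lapZ j g) := by
  have hcomm : ∀ a : Fin (j + 1), pderiv (a, true) (pderiv (a, false) g) =
      pderiv (a, false) (pderiv (a, true) g) := by
    intro a
    have key : ⁅(pderiv (a, true) : Derivation ℂ (ZP j) (ZP j)), pderiv (a, false)⁆ = 0 :=
      derivation_ext fun k => by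
        rw [Derivation.commutator_apply, pderiv_X, pderiv_X]
        simp [Pi.single_apply, apply_ite]
    have h := congrArg (fun D : Derivation ℂ (ZP j) (ZP j) => D g) key
    simpa [Derivation.commutator_apply, sub_eq_zero] using h
  rw [lapC_apply, sum_fin_amb, lapZ, LinearMap.sum_apply, map_sum, Finset.smul_sum]
  refine Finset.sum_congr rfl fun a _ => ?_
  rw [(pderiv_fwd j g a).1, (pderiv_fwd j g a).2, (pderiv_fwd j _ a).1, (pderiv_fwd j _ a).2]
  simp only [map_add, map_sub, Derivation.map_smul, map_smul, smul_sub, smul_smul,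
    Complex.I_mul_I, hcomm, LinearMap.comp_apply, Derivation.coeFn_coe]
  simp only [smul_eq_C_mul, map_neg, map_one, map_ofNat]
  ring

end Vale.Agent.P225.Eigen
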