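import Vale.Agent.P225.Eigen.Coords
import Vale.Agent.P225.Interfaces

/-! P225 C1: dimension count for bidegree `(p,q)` harmonic polynomials. -/

open scoped BigOperators
open MvPolynomial

namespace Vale.Agent.P225.Eigen

variable (j : ℕ)

/-- Exponents of bidegree `(p, q)`. -/
def bset (p q : ℕ) : Set (Zv j →₀ ℕ) := {e | bideg j false e = p ∧ bideg j true e = q}

/-- Polynomials of bidegree `(p, q)`. -/
noncomputable def W (p q : ℕ) : Submodule ℂ (ZP j) := restrictSupport ℂ (bset j p q)

theorem mem_W {p q : ℕ} {g : ZP j} : g ∈ W j p q ↔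
    ∀ e, coeff e g ≠ 0 → bideg j false e = p ∧ bideg j true e = q := by
  rw [W, mem_restrictSupport_iff]
  exact ⟨fun h e he => h (mem_support_iff.mpr he), fun h e he => h e (mem_support_iff.mp he)⟩

/-- Splitting an exponent into its two halves. -/
noncomputable def bsetEquiv (p q : ℕ) : bset j p q ≃
    (Finset.univ : Finset (Fin (j + 1))).finsuppAntidiag p ×
      (Finset.univ : Finset (Fin (j + 1))).finsuppAntidiag q where
  toFun e := (⟨Finsupp.equivFunOnFinite.symm fun a => e.1 (a, false), by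
      rw [Finset.mem_finsuppAntidiag]; exact ⟨by simpa [bideg] using e.2.1, Finset.subset_univ _⟩⟩,
    ⟨Finsupp.equivFunOnFinite.symm fun a => e.1 (a, true), by
      rw [Finset.mem_finsuppAntidiag]; exact ⟨by simpa [bideg] using e.2.2, Finset.subset_univ _⟩⟩)
  invFun x := ⟨Finsupp.equivFunOnFinite.symm fun v => if v.2 then x.2.1 v.1 else x.1.1 v.1, by
    obtain ⟨⟨f, hf⟩, ⟨g, hg⟩⟩ := x
    rw [Finset.mem_finsuppAntidiag] at hf hg
    exact ⟨by simpa [bideg] using hf.1, by simpa [bideg] using hg.1⟩⟩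
  left_inv e := by
    apply Subtype.ext
    ext ⟨a, b⟩
    cases b <;> simp
  right_inv x := by
    ext a <;> simp

noncomputable instance (p q : ℕ) : Fintype (bset j p q) := Fintype.ofEquiv _ (bsetEquiv j p q).symm

instance (p q : ℕ) : Module.Finite ℂ (W j p q) :=
  Module.Finite.of_basis (basisRestrictSupport ℂ (bset j p q))

theorem finrank_W (p q : ℕ) :
    Module.finrank ℂ (W j p q) = (p + j).choose j * (q + j).choose j := by
  rw [W, Module.finrank_eq_card_basis (basisRestrictSupport ℂ (bset j p q)),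
    Fintype.card_congr (bsetEquiv j p q), Fintype.card_prod, Fintype.card_coe, Fintype.card_coe,
    Finset.card_finsuppAntidiag_nat_eq_choose, Finset.card_finsuppAntidiag_nat_eq_choose,
    Finset.card_univ, Fintype.card_fin]
  rw [show j + 1 + p - 1 = p + j by omega, show j + 1 + q - 1 = q + j by omega,
    ← Nat.choose_symm (Nat.le_add_left j p), ← Nat.choose_symm (Nat.le_add_left j q),
    Nat.add_sub_cancel, Nat.add_sub_cancel]

theorem bideg_add_single (e : Zv j →₀ ℕ) (a : Fin (j + 1)) (b c : Bool) :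
    bideg j c (e + Finsupp.single (a, b) 1) = bideg j c e + if b = c then 1 else 0 := by
  classical
  simp only [bideg, Finsupp.add_apply, Finset.sum_add_distrib, Finsupp.single_apply,
    Prod.mk.injEq]
  by_cases h : b = c <;> simp [h]

theorem lapZ_support {p q : ℕ} {g : ZP j} (hg : g ∈ W j p q) (e : Zv j →₀ ℕ)
    (he : coeff e (lapZ j g) ≠ 0) : bideg j false e + 1 = p ∧ bideg j true e + 1 = q := by
  rw [lapZ, LinearMap.sum_apply, coeff_sum] at he
  obtain ⟨a, _, ha⟩ := Finset.exists_ne_zero_of_sum_ne_zero he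
  rw [LinearMap.comp_apply] at ha
  simp only [Derivation.coeFn_coe, coeff_pderiv] at ha
  have h1 : coeff (e + Finsupp.single (a, false) 1 + Finsupp.single (a, true) 1) g ≠ 0 :=
    fun h => ha (by rw [h]; simp)
  obtain ⟨hp, hq⟩ := (mem_W j).mp hg _ h1
  simp [bideg_add_single] at hp hq
  exact ⟨hp, hq⟩

/-- Harmonic polynomials of bidegree `(p,q)`. -/
noncomputable def K (p q : ℕ) : Submodule ℂ (ZP j) := W j p q ⊓ LinearMap.ker (lapZ j)

instance (p q : ℕ) : Module.Finite ℂ (K j p q) :=
  Module.Finite.of_injective (Submodule.inclusion (inf_le_left : K j p q ≤ W j p q))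
    (Submodule.inclusion_injective _)

theorem finrank_K (p q : ℕ) : (p + j).choose j * (q + j).choose j -
    (p + j - 1).choose j * (q + j - 1).choose j ≤ Module.finrank ℂ (K j p q) := by
  by_cases h : p = 0 ∨ q = 0
  · have hK : K j p q = W j p q := inf_eq_left.mpr fun g hg => by
      rw [LinearMap.mem_ker]
      ext e
      rw [coeff_zero]
      by_contra he
      obtain ⟨h1, h2⟩ := lapZ_support j hg e he
      omega
    rw [hK, finrank_W]
    exact Nat.sub_le _ _
  push Not at h
  obtain ⟨p, rfl⟩ : ∃ p', p = p' + 1 := ⟨p - 1, by omega⟩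
  obtain ⟨q, rfl⟩ : ∃ q', q = q' + 1 := ⟨q - 1, by omega⟩
  have hmap : ∀ g : W j (p + 1) (q + 1), lapZ j g.1 ∈ W j p q := fun g => (mem_W j).mpr fun e he => by
    obtain ⟨h1, h2⟩ := lapZ_support j g.2 e he
    omega
  let T : W j (p + 1) (q + 1) →ₗ[ℂ] W j p q :=
    ((lapZ j).comp (W j (p + 1) (q + 1)).subtype).codRestrict _ hmap
  have hker : Module.finrank ℂ (LinearMap.ker T) ≤ Module.finrank ℂ (K j (p + 1) (q + 1)) := by
    let f : LinearMap.ker T →ₗ[ℂ] K j (p + 1) (q + 1) :=
      ((W j (p + 1) (q + 1)).subtype.comp (LinearMap.ker T).subtype).codRestrict _ fun g =>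
        ⟨g.1.2, LinearMap.mem_ker.mpr (congrArg Subtype.val (LinearMap.mem_ker.mp g.2))⟩
    exact LinearMap.finrank_le_finrank_of_injective (f := f)
      (fun a b hab => Subtype.ext (Subtype.ext (congrArg Subtype.val hab :)))
  have hr := LinearMap.finrank_range_add_finrank_ker T
  have hr2 := Submodule.finrank_le (LinearMap.range T)
  rw [finrank_W] at hr hr2
  rw [show p + 1 + j - 1 = p + j by omega, show q + 1 + j - 1 = q + j by omega]
  omega

/-- The explicit lower bound. -/
theorem count_bound (hj : 1 ≤ j) (p q : ℕ) :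
    j * (p + q) * (p * q) ^ (j - 1) / j.factorial ^ 2 ≤
      (p + j).choose j * (q + j).choose j - (p + j - 1).choose j * (q + j - 1).choose j := by
  refine Nat.div_le_of_le_mul ?_
  obtain ⟨i, rfl⟩ : ∃ i, j = i + 1 := ⟨j - 1, by omega⟩
  have e1 : ∀ r : ℕ, (i + 1).factorial * (r + (i + 1)).choose (i + 1) =
      (r + 1).ascFactorial i * (r + (i + 1)) := by
    intro r
    rw [← Nat.ascFactorial_eq_factorial_mul_choose, Nat.ascFactorial_succ]
    ring
  have e2 : ∀ r : ℕ, (i + 1).factorial * (r + i).choose (i + 1) = (r + 1).ascFactorial i * r := by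
    intro r
    rcases r with _ | r
    · simp
    · rw [show r + 1 + i = r + (i + 1) by ring, ← Nat.ascFactorial_eq_factorial_mul_choose,
        Nat.ascFactorial_succ, ← Nat.succ_ascFactorial]
      ring
  rw [show p + (i + 1) - 1 = p + i by omega, show q + (i + 1) - 1 = q + i by omega, Nat.mul_sub,
    Nat.add_sub_cancel, sq,
    show (i + 1).factorial * (i + 1).factorial * ((p + (i + 1)).choose (i + 1) *
      (q + (i + 1)).choose (i + 1)) = ((p + 1).ascFactorial i * (p + (i + 1))) *
        ((q + 1).ascFactorial i * (q + (i + 1))) by rw [← e1, ← e1]; ring,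
    show (i + 1).factorial * (i + 1).factorial * ((p + i).choose (i + 1) * (q + i).choose (i + 1)) =
      ((p + 1).ascFactorial i * p) * ((q + 1).ascFactorial i * q) by rw [← e2, ← e2]; ring]
  have hp : p ^ i ≤ (p + 1).ascFactorial i :=
    le_trans (Nat.pow_le_pow_left (Nat.le_succ p) i) (Nat.pow_succ_le_ascFactorial _ _)
  have hq : q ^ i ≤ (q + 1).ascFactorial i :=
    le_trans (Nat.pow_le_pow_left (Nat.le_succ q) i) (Nat.pow_succ_le_ascFactorial _ _)
  set M := (p + 1).ascFactorial i
  set N := (q + 1).ascFactorial i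
  have hMN : (p * q) ^ i ≤ M * N := by rw [mul_pow]; exact Nat.mul_le_mul hp hq
  refine Nat.le_sub_of_add_le ?_
  calc (i + 1) * (p + q) * (p * q) ^ i + M * p * (N * q)
      ≤ (i + 1) * (p + q + (i + 1)) * (M * N) + M * p * (N * q) :=
        Nat.add_le_add_right (Nat.mul_le_mul (Nat.mul_le_mul_left _ (Nat.le_add_right _ _)) hMN) _
    _ = M * (p + (i + 1)) * (N * (q + (i + 1))) := by ring

end Vale.Agent.P225.Eigen
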