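import Vale.Agent.P225.Harm

/-! P225 C1: the Fischer product and adjointness of the rotation derivations. -/

open scoped BigOperators
open MvPolynomial

namespace Vale.Agent.P225.Eigen

variable {n : ℕ}

theorem fischer_eq {P R : MvPolynomial (Fin n) ℝ} {s : Finset (Fin n →₀ ℕ)}
    (h : P.support ⊆ s) :
    fischer P R = ∑ e ∈ s, ((∏ i, (e i).factorial : ℕ) : ℝ) * coeff e P * coeff e R :=
  Finset.sum_subset h fun e _ he => by simp [notMem_support_iff.mp he]

theorem fischer_add_left (P P' R : MvPolynomial (Fin n) ℝ) :
    fischer (P + P') R = fischer P R + fischer P' R := by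
  classical
  rw [fischer_eq (P := P + P') (s := P.support ∪ P'.support) support_add,
    fischer_eq (P := P) Finset.subset_union_left,
    fischer_eq (P := P') (s := P.support ∪ P'.support) Finset.subset_union_right,
    ← Finset.sum_add_distrib]
  exact Finset.sum_congr rfl fun e _ => by rw [coeff_add]; ring

theorem fischer_zero_left (R : MvPolynomial (Fin n) ℝ) : fischer 0 R = 0 := by simp [fischer]

theorem fischer_smul_left (c : ℝ) (P R : MvPolynomial (Fin n) ℝ) :
    fischer (c • P) R = c * fischer P R := by
  rw [fischer_eq (P := c • P) (s := P.support) support_smul, fischer, Finset.mul_sum]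
  exact Finset.sum_congr rfl fun e _ => by rw [coeff_smul, smul_eq_mul]; ring

theorem fischer_symm (P R : MvPolynomial (Fin n) ℝ) : fischer P R = fischer R P := by
  classical
  rw [fischer_eq (P := P) (s := P.support ∪ R.support) Finset.subset_union_left,
    fischer_eq (P := R) (s := P.support ∪ R.support) Finset.subset_union_right]
  exact Finset.sum_congr rfl fun e _ => by ring

theorem fischer_sum_left {ι : Type*} (s : Finset ι) (f : ι → MvPolynomial (Fin n) ℝ)
    (R : MvPolynomial (Fin n) ℝ) : fischer (∑ i ∈ s, f i) R = ∑ i ∈ s, fischer (f i) R := by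
  classical
  induction s using Finset.induction_on with
  | empty => simp [fischer_zero_left]
  | insert a t ha ih => rw [Finset.sum_insert ha, Finset.sum_insert ha, fischer_add_left, ih]

theorem fischer_neg_left (P R : MvPolynomial (Fin n) ℝ) : fischer (-P) R = -fischer P R := by
  rw [← neg_one_smul ℝ P, fischer_smul_left, neg_one_mul]

theorem fischer_neg_right (P R : MvPolynomial (Fin n) ℝ) : fischer P (-R) = -fischer P R := by
  rw [fischer_symm P (-R), fischer_neg_left, fischer_symm R P]

theorem fischer_monomial (e : Fin n →₀ ℕ) (c : ℝ) (R : MvPolynomial (Fin n) ℝ) :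
    fischer (monomial e c) R = ((∏ i, (e i).factorial : ℕ) : ℝ) * c * coeff e R := by
  classical
  rw [fischer_eq (P := monomial e c) (s := {e}) support_monomial_subset, Finset.sum_singleton,
    coeff_monomial, if_pos rfl]

theorem fischer_self_nonneg (P : MvPolynomial (Fin n) ℝ) : 0 ≤ fischer P P :=
  Finset.sum_nonneg fun e _ => by
    rw [mul_assoc]
    exact mul_nonneg (Nat.cast_nonneg _) (mul_self_nonneg _)

theorem fischer_definite (P : MvPolynomial (Fin n) ℝ) (h : fischer P P = 0) : P = 0 := by
  by_contra hne
  obtain ⟨e, he⟩ := exists_coeff_ne_zero hne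
  have he' : e ∈ P.support := mem_support_iff.mpr he
  have hpos : (0:ℝ) < ((∏ i, (e i).factorial : ℕ) : ℝ) * coeff e P * coeff e P := by
    rw [mul_assoc]
    exact mul_pos (Nat.cast_pos.mpr (Finset.prod_pos fun i _ => Nat.factorial_pos _))
      (mul_self_pos.mpr (mem_support_iff.mp he'))
  refine absurd h (ne_of_gt (lt_of_lt_of_le hpos ?_))
  exact Finset.single_le_sum (f := fun d => ((∏ i, (d i).factorial : ℕ) : ℝ) * coeff d P * coeff d P)
    (fun d _ => by rw [mul_assoc]; exact mul_nonneg (Nat.cast_nonneg _) (mul_self_nonneg _)) he'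

theorem fischer_X_mul (k : Fin n) (P R : MvPolynomial (Fin n) ℝ) :
    fischer (X k * P) R = fischer P (pderiv k R) := by
  induction P using MvPolynomial.induction_on' with
  | monomial e c =>
    rw [show (X k : MvPolynomial (Fin n) ℝ) * monomial e c = monomial (e + Finsupp.single k 1) c by
      rw [X, monomial_mul, one_mul, add_comm], fischer_monomial, fischer_monomial, coeff_pderiv]
    have : (∏ i, ((e + Finsupp.single k 1 : Fin n →₀ ℕ) i).factorial) = (∏ i, (e i).factorial) * (e k + 1) := by
      classical
      have hpt : ∀ i, ((e + Finsupp.single k 1 : Fin n →₀ ℕ) i).factorial =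
          (e i).factorial * if i = k then e k + 1 else 1 := by
        intro i
        rcases eq_or_ne i k with rfl | h
        · simp [Nat.factorial_succ, mul_comm]
        · simp [h]
      simp only [hpt, Finset.prod_mul_distrib, Finset.prod_ite_eq', Finset.mem_univ, if_true]
    rw [this]
    push_cast
    ring
  | add p q hp hq => rw [mul_add, fischer_add_left, fischer_add_left, hp, hq]

theorem fischer_derJ_eq (J : Matrix (Fin n) (Fin n) ℝ) (P R : MvPolynomial (Fin n) ℝ) :
    fischer (derJ J P) R = ∑ i, ∑ k, J i k * fischer (pderiv i P) (pderiv k R) := by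
  rw [derJ_apply, fischer_sum_left]
  refine Finset.sum_congr rfl fun i _ => ?_
  rw [fischer_sum_left]
  exact Finset.sum_congr rfl fun k _ => by rw [fischer_smul_left, fischer_X_mul]

theorem fischer_derJ {J : Matrix (Fin n) (Fin n) ℝ} (hJ : J.transpose = -J)
    (P R : MvPolynomial (Fin n) ℝ) : fischer (derJ J P) R = -fischer P (derJ J R) := by
  have hanti : ∀ i k, J k i = -J i k := fun i k => by
    simpa using congrFun (congrFun hJ i) k
  rw [fischer_symm P (derJ J R), fischer_derJ_eq, fischer_derJ_eq, Finset.sum_comm]
  simp only [← Finset.sum_neg_distrib]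
  refine Finset.sum_congr rfl fun a _ => Finset.sum_congr rfl fun b _ => ?_
  rw [hanti a b, fischer_symm (pderiv b P), neg_mul]

theorem fischer_qOp {J : Matrix (Fin n) (Fin n) ℝ} (hJ : J.transpose = -J)
    (P R : MvPolynomial (Fin n) ℝ) :
    fischer (qOp J P) R = fischer P (qOp J R) ∧ 0 ≤ fischer (qOp J P) P := by
  have hq : ∀ f, qOp J f = -derJ J (derJ J f) := fun f => rfl
  refine ⟨?_, ?_⟩
  · rw [hq, hq, fischer_neg_left, fischer_neg_right, fischer_derJ hJ, fischer_derJ hJ, neg_neg]
  · rw [hq, fischer_neg_left, fischer_derJ hJ, neg_neg]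
    exact fischer_self_nonneg _

end Vale.Agent.P225.Eigen
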